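import Vale.Agent.P181.BAL.Defs
import Vale.Agent.P181.TL.H797.CoreN

set_option autoImplicit false

/-!
# P181, BAL: `CoreD` from the blocks
-/

namespace Vale.Agent.P181.BAL.H968

open Vale.Agent.P181.T4 (HW)
open Vale.Agent.P181.H280 (plethMult)
open Vale.Agent.P181.SZ
open Vale.Agent.P181.TL
open Vale.Agent.P181.TL.H797 (bal bal_le sum_bal)

/-- The numbers behind `CoreD`. -/
lemma numD {a q m t A w B l1' l2 am X c : ℕ} (ha : 12 ≤ a) (hq5 : 5 ≤ q)
    (ht16 : 16 * t ≤ a ^ 2 * q) (hm : 8 * q ≤ m) (haq : 40 * q ≤ a) (hA : A * (a * q) ≤ t)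
    (ham : am * m ≤ a) (hX : 2 * m * q * X ≤ A)
    (hL : l2 + 2 * q ^ 2 * a + 2 * m * q ^ 2 * X * a + q ^ 2 * a * am + 2 * a ≤ l1')
    (hw : w = l1' + t) (hB : 3 * q * a + 3 * ((l1' + t) / a) + 3 + c ≤ B) :
    2 * (A + q + 2 * m * q * X + q * am + q + 1) ≤ a ∧
    q * a * (A + q + 2 * m * q * X + q * am + q) + l2 + 2 * a ≤ w ∧
    3 * q * a + 3 * (w / a) + 3 ≤ B - c := by
  have ha0 : 0 < a := by omega
  refine ⟨?_, ?_, ?_⟩
  · have h1 : 16 * A ≤ a := by
      have h2 : (16 * A) * (a * q) ≤ a * (a * q) := by nlinarith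
      exact Nat.le_of_mul_le_mul_right h2 (by positivity)
    have h3 : 8 * (q * am) ≤ a := by
      calc 8 * (q * am) = am * (8 * q) := by ring
        _ ≤ am * m := Nat.mul_le_mul_left _ hm
        _ ≤ a := ham
    omega
  · have h1 : q * a * (A + q + 2 * m * q * X + q * am + q) + l2 + 2 * a =
        A * (a * q) + (l2 + 2 * q ^ 2 * a + 2 * m * q ^ 2 * X * a + q ^ 2 * a * am + 2 * a) := by
      ring
    rw [h1, hw]
    omega
  · rw [hw]
    omega

/-- **(B10)** -/
theorem coreD (h1 : UpB) (h2 : BalB) (h6 : LowP) (hG : GrowP) (hBal : Balance) : CoreD := by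
  intro a b k q m X K lam hsum ha hq hm haq hX1 hXA hgr hpow h10 hL hb
  have ha0 : 0 < a := by omega
  have hq5 : 5 ≤ q := by rw [hq]; exact Nat.le_add_right _ _
  set t := dn2 lam with htdef
  have hg := hG a b q t X ha0 hq5 hX1 hgr
  have hs2 : ∀ f : Fin (k + 3) → ℕ, ∑ i, f i = f 0 + (f 1 + dn2 f) := by
    intro f
    rw [Fin.sum_univ_succ, Fin.sum_univ_succ]
    rfl
  have htot : lam 0 + (lam 1 + t) = a * b := by rw [← hsum, hs2]
  have hK5 : K * (5 * a - 6) = K * (4 * a + 6) + K * (a - 12) := by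
    rw [← Nat.mul_add]
    congr 1
    omega
  have hK9 : K * (4 * a + 6) + K * (5 * a - 6) = a * (9 * K) := by
    rw [← Nat.mul_add, show 4 * a + 6 + (5 * a - 6) = 9 * a by omega]
    ring
  have h9 : 9 * K ≤ b := by omega
  set lam' : Fin (k + 3) → ℕ := fun i =>
    if (i : ℕ) = 0 then lam i - K * (4 * a + 6) else
      if (i : ℕ) = 1 then lam i - K * (5 * a - 6) else lam i with hlam'
  have e0 : lam' 0 = lam 0 - K * (4 * a + 6) := by
    simp [hlam']
  have e1 : lam' 1 = lam 1 - K * (5 * a - 6) := by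
    simp [hlam']
  have etail : (fun i : Fin (k + 1) => lam' i.succ.succ) = fun i => lam i.succ.succ := by
    funext i
    simp only [hlam', Fin.val_succ]
    rw [if_neg (by omega), if_neg (by omega)]
  have e2 : lam' 2 = lam 2 := congrFun etail 0
  have ed : dn2 lam' = t := by
    rw [htdef, dn2, dn2]
    exact Finset.sum_congr rfl fun i _ => congrFun etail i
  have hK1 : K * (5 * a - 6) ≤ lam 1 := by omega
  have hK0 : K * (4 * a + 6) ≤ lam 0 := by omega
  have hsum' : ∑ i, lam' i = a * (b - 9 * K) := by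
    rw [hs2, ed, Nat.mul_sub, ← hK9, e0, e1]
    omega
  have hw : ∑ i, tl lam' i = lam' 1 + t := by
    rw [Fin.sum_univ_succ, ← ed]
    rfl
  have ht16 : 16 * t ≤ a ^ 2 * q := by
    have h5 := Nat.lt_mul_div_succ (16 * t) (show 0 < a ^ 2 by positivity)
    have h6 : 16 * t / a ^ 2 + 1 ≤ q := by
      rw [hq]
      generalize 16 * t / a ^ 2 = y
      omega
    calc 16 * t ≤ a ^ 2 * (16 * t / a ^ 2 + 1) := h5.le
      _ ≤ a ^ 2 * q := Nat.mul_le_mul_left _ h6
  have hA : t / a / q * (a * q) ≤ t := by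
    rw [Nat.div_div_eq_div_mul]
    exact Nat.div_mul_le_self t (a * q)
  obtain ⟨n1, n2, n3⟩ := numD (B := b) (l1' := lam' 1) (l2 := lam' 2) (X := 2 * X) (c := 9 * K)
    (w := ∑ i, tl lam' i) (am := a / m) ha hq5 ht16 hm haq hA (Nat.div_mul_le_self a m)
    hXA (by rw [e2, e1]; omega) hw (by
      rw [e1, show lam 1 - K * (5 * a - 6) + t = lam 1 + t - K * (5 * a - 6) by omega]
      exact hb)
  have ht' : (∑ i : Fin (k + 1), lam' i.succ.succ) = t := ed
  have e6 := h6 a (b - 9 * K) k q m (2 * X) lam' (bal a t) hsum' ha0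
    (by omega) (by omega) (by omega) (by rw [ht']; exact hXA)
    (fun i => by rw [ht']; rfl) (by rw [ht']; exact n1) (by rw [ht']; exact n2) n3
  rw [etail] at e6
  -- balancing
  have e7 := hBal a (b - 9 * K) (k + 1) K lam' lam ha (by rw [e0, e1]; omega)
    (by rw [e0]; omega) (by rw [e1]; omega) (fun i => (congrFun etail i).symm)
  rw [Nat.sub_add_cancel h9] at e7
  have u1 := h1 a b (k + 1) lam
  have u2 := h2 (k + 1) a (fun i => lam i.succ.succ) (bal a t) ha0 (bal_le a _) (sum_bal ha0 _)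
  have u3 : K * (a - 12) + 1 ≤ 2 ^ (4 * a) := by
    refine le_trans ?_ hpow
    have h8 : K * (a - 12) ≤ a * (9 * K) := by
      rw [← hK9]
      omega
    have h8' : a * (9 * K) ≤ a * b := Nat.mul_le_mul_left _ h9
    omega
  have u4 : 2 ^ (4 * a) ≤ 2 ^ ((q - 1) * a) :=
    Nat.pow_le_pow_right (by omega) (Nat.mul_le_mul_right _ (by omega))
  have key : (K * (a - 12) + 1) * plethMult a b (k + 3) lam ≤
      (K * (a - 12) + 1) * plethMult b a (k + 3) lam := by
    calc (K * (a - 12) + 1) * plethMult a b (k + 3) lam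
        ≤ 2 ^ (4 * a) * plethMult a b (k + 3) lam := Nat.mul_le_mul_right _ u3
      _ ≤ 2 ^ (4 * a) * ((a + b).choose a *
            Module.finrank ℂ (HW (k + 1) (Fin a) fun i => lam i.succ.succ)) :=
          Nat.mul_le_mul_left _ u1
      _ ≤ 2 ^ (4 * a) * ((a + b).choose a * ((a + t - 1).choose t *
            Module.finrank ℂ (KK (k + 1) (Fin a) (bal a t) fun i => lam i.succ.succ))) :=
          Nat.mul_le_mul_left _ (Nat.mul_le_mul_left _ u2)
      _ = 2 ^ (4 * a) * (((a + b).choose a * (a + t - 1).choose t) *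
            Module.finrank ℂ (KK (k + 1) (Fin a) (bal a t) fun i => lam i.succ.succ)) := by ring
      _ ≤ 2 ^ ((q - 1) * a) * (X ^ ((q - 1) * a) *
            Module.finrank ℂ (KK (k + 1) (Fin a) (bal a t) fun i => lam i.succ.succ)) :=
          Nat.mul_le_mul u4 (Nat.mul_le_mul_right _ hg)
      _ = (2 * X) ^ ((q - 1) * a) *
            Module.finrank ℂ (KK (k + 1) (Fin a) (bal a t) fun i => lam i.succ.succ) := by
          rw [Nat.mul_pow, Nat.mul_assoc]
      _ ≤ plethMult (b - 9 * K) a (k + 3) lam' := e6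
      _ ≤ (K * (a - 12) + 1) * plethMult b a (k + 3) lam := e7
  exact Nat.le_of_mul_le_mul_left key (Nat.succ_pos _)

end Vale.Agent.P181.BAL.H968
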