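import Vale.Agent.P181.BAL.H676.Fin
import Vale.Agent.P181.BAL.H676.UnionY
import Vale.Agent.P181.BAL.H467.Nine
import Vale.Agent.P181.BAL.H968.CoreD
import Vale.Agent.P181.BAL.H976.TwoD
import Vale.Agent.P181.TL.H797.FinalP
import Vale.Agent.P181.TR.H248.All

set_option autoImplicit false

/-!
# P181, BAL and TR: the closed theorems (text of helper676)
-/

namespace Vale.Agent.P181.BAL.H968

open Vale.Agent.P181

theorem balance_closed : Balance := H676.balance_of H467.nine

theorem coreD_closed : CoreD :=
  H968.coreD TL.H214.upB TL.H639.balB TL.H797.lowP_closed TL.H968.growP balance_closed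

theorem twoLongD_closed : TwoLongD :=
  H976.twoLongD coreD_closed TL.H976.nearLin TL.H976.fewTwo

theorem twoLongPD_closed : H410.TwoLongPD :=
  H410.twoLongPD_of coreD_closed TL.H797.plh_closed TL.H797.fewH_closed

theorem xAll_closed : H676.XAll := H676.xAll TR.H248.tlx_closed twoLongPD_closed

theorem yAll_closed : H676.YAll :=
  H676.yAll (H676.dAll_of_xAll xAll_closed) twoLongD_closed TL.H976.nearLin

end Vale.Agent.P181.BAL.H968
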